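import Vale.Agent.P204.Full.Spec

/-!
P204: assembly of the modules.
-/

namespace Vale.Agent.P204.Full

open scoped Manifold ContDiff

universe u

variable {M : Type u} [TopologicalSpace M] [ChartedSpace E4 M]

theorem tamedImpliesCompatible_of_specs
    (hA : SetupSpec M)
    (hL : ∀ S : Setup M, LiftSpec S) (hD : ∀ S : Setup M, DualSpec S)
    [MeasurableSpace M]
    (hR : ∀ S : Setup M, SmoothSpec S) (hG : ∀ S : Setup M, LogTestSpec S)
    (hQ : ∀ S : Setup M, SquareSpec S) (hE : ∀ S : Setup M, EnergySpec S)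
    (hC : ∀ S : Setup M, EnergyCutSpec S) (hZ : ∀ S : Setup M, EndSpec S)
    (J : M → E4 → E4) (hJ : IsAlmostComplex J) (w : M → E4 → E4 → ℝ) (hw : IsSymplectic w)
    (ht : Tames w J) : ∃ v, IsSymplectic v ∧ Compatible v J := by
  obtain ⟨S, rfl, hF⟩ := hA J hJ w hw.1 ht
  by_contra hne
  obtain ⟨O⟩ := hD S (hL S) hne
  obtain ⟨hden, hphi⟩ := hQ S (hR S) (hG S) O
  obtain ⟨cut⟩ := hC S (hR S) (hE S) O hden hphi
  have hφ := hZ S (hR S) O hden hphi cut
  have h0 := O.closed_null ⟨w, hw.1⟩ hw.2.1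
  have h1 : O.T S.F = O.T ⟨w, hw.1⟩ := O.T_inv ⟨w, hw.1⟩ S.F hF
  have h2 := O.T_unit
  rw [hφ] at h0
  linarith

end Vale.Agent.P204.Full
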