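import Vale.Agent.P204.Full.Flat

/-!
P204: the global layer. Forms are smooth pointwise fields; calculus happens in the charts of an
adapted atlas, in which the almost complex structure is close to the standard one.
-/

namespace Vale.Agent.P204.Full

open MeasureTheory Set Metric
open scoped Manifold ContDiff

universe u

variable {M : Type u} [TopologicalSpace M] [ChartedSpace E4 M]

/-- smooth two-forms, as a submodule of all fields -/
noncomputable def Form (M : Type u) [TopologicalSpace M] [ChartedSpace E4 M] :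
    Submodule ℝ (M → E4 → E4 → ℝ) where
  carrier := {w | IsTwoForm w}
  zero_mem' := by
    refine ⟨fun x u => ⟨by simp, by simp⟩, by simp, fun x0 u v => ?_⟩
    simp only [formInChart, Pi.zero_apply]
    exact contDiffOn_const
  add_mem' := by
    rintro a b ⟨ha1, ha2, ha3⟩ ⟨hb1, hb2, hb3⟩
    refine ⟨fun x u => ⟨fun p q => ?_, fun c p => ?_⟩, fun x u v => ?_, fun x0 u v => ?_⟩
    · simp [(ha1 x u).map_add, (hb1 x u).map_add]; ring
    · simp [(ha1 x u).map_smul, (hb1 x u).map_smul]; ring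
    · simp [ha2 x u v, hb2 x u v]; ring
    · simpa [formInChart] using (ha3 x0 u v).add (hb3 x0 u v)
  smul_mem' := by
    rintro c a ⟨ha1, ha2, ha3⟩
    refine ⟨fun x u => ⟨fun p q => ?_, fun d p => ?_⟩, fun x u v => ?_, fun x0 u v => ?_⟩
    · simp [(ha1 x u).map_add]; ring
    · simp [(ha1 x u).map_smul]; ring
    · simp [ha2 x u v]
    · simpa [formInChart] using (contDiffOn_const (c := c)).mul (ha3 x0 u v)

/-- smooth scalar functions -/
def IsSmoothFn (f : M → ℝ) : Prop :=
  ∀ x0 : M, ContDiffOn ℝ ∞ (fun y => f ((extChartAt (𝓡 4) x0).symm y))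
    (extChartAt (𝓡 4) x0).target

/-- a smooth one-form -/
def IsOneForm (α : M → E4 → ℝ) : Prop :=
  (∀ x, IsLinearMap ℝ (α x)) ∧ ∀ x0 : M, ∀ v : E4,
    ContDiffOn ℝ ∞ (fun y => α ((extChartAt (𝓡 4) x0).symm y) (fromChart x0 y v))
      (extChartAt (𝓡 4) x0).target

/-- the two-form is the differential of a smooth one-form -/
def IsExactForm (w : M → E4 → E4 → ℝ) : Prop :=
  ∃ α : M → E4 → ℝ, IsOneForm α ∧ ∀ x0 : M, ∀ y ∈ (extChartAt (𝓡 4) x0).target, ∀ u v : E4,
    formInChart w x0 y u v =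
      fderiv ℝ (fun z => α ((extChartAt (𝓡 4) x0).symm z) (fromChart x0 z v)) y u -
        fderiv ℝ (fun z => α ((extChartAt (𝓡 4) x0).symm z) (fromChart x0 z u)) y v

/-- differential of a scalar function -/
noncomputable def dFn (f : M → ℝ) (x : M) (v : E4) : ℝ := mfderiv (𝓡 4) 𝓘(ℝ, ℝ) f x v

/-- `df ∧ dᶜf` for the complex structure `J`, nonnegative on complex lines -/
noncomputable def dfdcf (J : M → E4 → E4) (f : M → ℝ) : M → E4 → E4 → ℝ :=
  fun x u v => dFn f x (J x u) * dFn f x v - dFn f x (J x v) * dFn f x u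

/-- invariant part -/
noncomputable def p11 (J : M → E4 → E4) (w : M → E4 → E4 → ℝ) : M → E4 → E4 → ℝ :=
  fun x u v => (w x u v + w x (J x u) (J x v)) / 2

/-- anti-invariant part -/
noncomputable def pm (J : M → E4 → E4) (w : M → E4 → E4 → ℝ) : M → E4 → E4 → ℝ :=
  fun x u v => (w x u v - w x (J x u) (J x v)) / 2

/-- nonnegative on complex lines -/
def NonnegJ (J : M → E4 → E4) (w : M → E4 → E4 → ℝ) : Prop := ∀ x v, 0 ≤ w x v (J x v)

/-- coefficients of a two-form at a point in the distinguished chart at that point -/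
noncomputable def coefAt (w : M → E4 → E4 → ℝ) (x : M) : C2 := fun a b => w x (ev4 a) (ev4 b)

/-- the ratio `w ∧ η / (F ∧ F / 2)` -/
noncomputable def wg (F w η : M → E4 → E4 → ℝ) (x : M) : ℝ :=
  2 * wdg (coefAt w x) (coefAt η x) / wdg (coefAt F x) (coefAt F x)

/-- differential of a chart -/
noncomputable def dMap (c : OpenPartialHomeomorph M E4) (x : M) (v : E4) : E4 :=
  mfderiv (𝓡 4) (𝓡 4) c x v

/-- differential of the inverse of a chart -/
noncomputable def dInv (c : OpenPartialHomeomorph M E4) (y v : E4) : E4 :=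
  mfderiv (𝓡 4) (𝓡 4) c.symm y v

/-- a two-tensor read in a chart -/
noncomputable def readC (c : OpenPartialHomeomorph M E4) (w : M → E4 → E4 → ℝ) (y : E4) : C2 :=
  fun a b => w (c.symm y) (dInv c y (ev4 a)) (dInv c y (ev4 b))

/-- matrix of the almost complex structure in a chart -/
noncomputable def readJ (c : OpenPartialHomeomorph M E4) (J : M → E4 → E4) (y : E4) :
    Matrix (Fin 4) (Fin 4) ℝ :=
  fun p a => dMap c (c.symm y) (J (c.symm y) (dInv c y (ev4 a))) p

/-- coefficients in a chart pushed to the manifold -/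
noncomputable def pushC (c : OpenPartialHomeomorph M E4) (w : E4 → C2) (x : M) (u v : E4) : ℝ :=
  ∑ a, ∑ b, dMap c x u a * dMap c x v b * w (c x) a b

/-- a finite atlas adapted to `J`, with a partition of unity and an injective smooth map to a
Euclidean space used only to measure distances -/
structure Atl (M : Type u) [TopologicalSpace M] [ChartedSpace E4 M] (J : M → E4 → E4) where
  n : ℕ
  chart : Fin n → OpenPartialHomeomorph M E4
  mem_maximal : ∀ i, chart i ∈ IsManifold.maximalAtlas (𝓡 4) ∞ M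
  ball_subset : ∀ i, closedBall (0 : E4) 4 ⊆ (chart i).target
  rho : Fin n → M → ℝ
  rho_nonneg : ∀ i x, 0 ≤ rho i x
  rho_sum : ∀ x, ∑ i, rho i x = 1
  rho_smooth : ∀ i, IsSmoothFn (rho i)
  rho_support : ∀ i, tsupport (rho i) ⊆ (chart i).source ∩ chart i ⁻¹' ball 0 1
  near_std : ∀ i, ∀ y ∈ closedBall (0 : E4) 4, ∀ p q, |readJ (chart i) J y p q - J0 p q| ≤ 1 / 1000
  dim : ℕ
  emb : M → EuclideanSpace ℝ (Fin dim)
  emb_smooth : ∀ k, IsSmoothFn fun x => emb x k
  emb_injective : Function.Injective emb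
  emb_bilip : ∃ c > 0, ∃ C > 0, ∀ i, ∀ y ∈ closedBall (0 : E4) 4, ∀ z ∈ closedBall (0 : E4) 4,
    c * ‖y - z‖ ≤ ‖emb ((chart i).symm y) - emb ((chart i).symm z)‖ ∧
      ‖emb ((chart i).symm y) - emb ((chart i).symm z)‖ ≤ C * ‖y - z‖

/-- almost complex four-manifold with a fixed positive invariant form and an adapted atlas -/
structure Setup (M : Type u) [TopologicalSpace M] [ChartedSpace E4 M] where
  J : M → E4 → E4
  isJ : IsAlmostComplex J
  F : Form M
  F_inv : p11 J F.1 = F.1
  F_pos : ∀ x v, v ≠ 0 → 0 < F.1 x v (J x v)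
  at_ : Atl M J

namespace Setup

variable (S : Setup M)

/-- reading in the `i`-th chart -/
noncomputable def read (i : Fin S.at_.n) (w : M → E4 → E4 → ℝ) : E4 → C2 :=
  readC (S.at_.chart i) w

/-- pointwise norm -/
noncomputable def nrm (w : M → E4 → E4 → ℝ) (x : M) : ℝ :=
  ∑ i, S.at_.rho i x * ‖S.read i w (S.at_.chart i x)‖

/-- sup norms of the chart derivatives up to order `N` -/
noncomputable def cN (N : ℕ) (w : M → E4 → E4 → ℝ) : ℝ :=
  ∑ i, ∑ j ∈ Finset.range (N + 1),
    ⨆ y : closedBall (0 : E4) 3, ‖iteratedFDeriv ℝ j (S.read i w) y‖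

/-- semiclassical square-integral norm at scale `e` -/
noncomputable def sN (m : ℕ) (e : ℝ) (w : M → E4 → E4 → ℝ) : ℝ :=
  ∑ i, ∑ j ∈ Finset.range (m + 1),
    e ^ j * Real.sqrt (∫ y in closedBall (0 : E4) 2, ‖iteratedFDeriv ℝ j (S.read i w) y‖ ^ 2)

/-- cut-off of the squared embedded distance at scale `e` -/
noncomputable def bump (e : ℝ) (x y : M) : ℝ :=
  Real.smoothTransition (2 - ‖S.at_.emb x - S.at_.emb y‖ ^ 2 / e ^ 2)

variable [MeasurableSpace M]

/-- the volume measure of the positive invariant form -/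
noncomputable def vol : Measure M :=
  ∑ i, Measure.map (S.at_.chart i).symm ((volume.restrict (ball (0 : E4) 1)).withDensity fun y =>
    ENNReal.ofReal (S.at_.rho i ((S.at_.chart i).symm y) *
      (wdg (S.read i S.F.1 y) (S.read i S.F.1 y) / 2)))

/-- pairing of two two-forms -/
noncomputable def pair (w η : M → E4 → E4 → ℝ) : ℝ := ∫ x, wg S.F.1 w η x ∂S.vol

/-- square-integral norm -/
noncomputable def l2 (w : M → E4 → E4 → ℝ) : ℝ := Real.sqrt (∫ x, S.nrm w x ^ 2 ∂S.vol)

/-- averaging majorant at scale `e` -/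
noncomputable def maj (e : ℝ) (f : M → ℝ) (x : M) : ℝ :=
  (∫ y, S.bump e x y * f y ∂S.vol) / e ^ 4

end Setup

/-- the exact current produced by the absence of a compatible form: a positive invariant
functional plus an anti-invariant functional of finite order, vanishing on closed forms -/
structure Obstruction (S : Setup M) where
  T : Form M →ₗ[ℝ] ℝ
  φ : Form M →ₗ[ℝ] ℝ
  T_inv : ∀ w η : Form M, η.1 = p11 S.J w.1 → T η = T w
  T_nonneg : ∀ w : Form M, p11 S.J w.1 = w.1 → NonnegJ S.J w.1 → 0 ≤ T w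
  T_unit : T S.F = 1
  φ_anti : ∀ w η : Form M, η.1 = pm S.J w.1 → φ η = φ w
  order : ℕ
  bound : ℝ
  T_bound : ∀ w, |T w| ≤ bound * S.cN 0 w.1
  φ_bound : ∀ w, |φ w| ≤ bound * S.cN order w.1
  closed_null : ∀ w : Form M, IsClosedForm w.1 → T w + φ w = 0

end Vale.Agent.P204.Full
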