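import Vale.Agent.P204.Full.Charts

/-!
P204: a smooth two-form as a bilinear-map valued function in a chart, and atlas-independence of
closedness: it suffices to check the cyclic sum in one chart around each point.
-/

namespace Vale.Agent.P204.Full

open scoped Manifold ContDiff Topology
open Set

/-- the bilinear map with prescribed coefficients -/
noncomputable def bilinOf (c : Fin 4 → Fin 4 → ℝ) : E4 →L[ℝ] E4 →L[ℝ] ℝ :=
  ∑ a, ∑ b, c a b • (EuclideanSpace.proj a).smulRight (EuclideanSpace.proj b : E4 →L[ℝ] ℝ)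

theorem bilinOf_apply (c : Fin 4 → Fin 4 → ℝ) (u v : E4) :
    bilinOf c u v = ∑ a, ∑ b, c a b * (u a * v b) := by
  simp [bilinOf, ContinuousLinearMap.smulRight_apply]

theorem sum_single_E4 (u : E4) : ∑ a, u a • EuclideanSpace.single a (1 : ℝ) = u := by
  ext i
  simp [Finset.sum_apply, Pi.single_apply]

theorem bilinear_eq_bilinOf (B : E4 → E4 → ℝ) (h1 : ∀ v, IsLinearMap ℝ (fun u => B u v))
    (h2 : ∀ u, IsLinearMap ℝ (B u)) (u v : E4) :
    B u v = bilinOf (fun a b => B (EuclideanSpace.single a 1) (EuclideanSpace.single b 1)) u v := by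
  let L2 : E4 → (E4 →ₗ[ℝ] ℝ) := fun u => (h2 u).mk' _
  let L1 : E4 → (E4 →ₗ[ℝ] ℝ) := fun v => (h1 v).mk' _
  rw [bilinOf_apply]
  conv_lhs => rw [← sum_single_E4 u]
  show L1 v (∑ a, u a • EuclideanSpace.single a (1 : ℝ)) = _
  rw [map_sum]
  refine Finset.sum_congr rfl fun a _ => ?_
  rw [map_smul]
  show u a • L2 (EuclideanSpace.single a 1) v = _
  conv_lhs => rw [← sum_single_E4 v]
  rw [map_sum, Finset.smul_sum]
  refine Finset.sum_congr rfl fun b _ => ?_
  rw [map_smul, smul_eq_mul, smul_eq_mul]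
  show u a * (v b * B _ _) = _
  ring

/-- flat naturality: the cyclic sum of the derivative of a pulled back two-form -/
theorem cyclic_fderiv_pull {B : E4 → E4 →L[ℝ] E4 →L[ℝ] ℝ} {τ : E4 → E4} {y : E4}
    (hB : DifferentiableAt ℝ B (τ y)) (hτ : ContDiffAt ℝ 2 τ y)
    (hanti : ∀ a b, B (τ y) b a = -B (τ y) a b) (u v q : E4) :
    let g := fun a b z => B (τ z) (fderiv ℝ τ z a) (fderiv ℝ τ z b)
    fderiv ℝ (g v q) y u + fderiv ℝ (g q u) y v + fderiv ℝ (g u v) y q
      = fderiv ℝ B (τ y) (fderiv ℝ τ y u) (fderiv ℝ τ y v) (fderiv ℝ τ y q)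
        + fderiv ℝ B (τ y) (fderiv ℝ τ y v) (fderiv ℝ τ y q) (fderiv ℝ τ y u)
        + fderiv ℝ B (τ y) (fderiv ℝ τ y q) (fderiv ℝ τ y u) (fderiv ℝ τ y v) := by
  intro g
  have hA : HasFDerivAt (fderiv ℝ τ) (fderiv ℝ (fderiv ℝ τ) y) y :=
    (((hτ.fderiv_right (m := 1) (by norm_num)).differentiableAt (by norm_num))).hasFDerivAt
  have hτd : HasFDerivAt τ (fderiv ℝ τ y) y := (hτ.differentiableAt (by norm_num)).hasFDerivAt
  have hcB : HasFDerivAt (fun z => B (τ z)) ((fderiv ℝ B (τ y)).comp (fderiv ℝ τ y)) y :=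
    HasFDerivAt.comp (g := B) (f := τ) y hB.hasFDerivAt hτd
  have happ : ∀ a : E4, HasFDerivAt (fun z => fderiv ℝ τ z a)
      ((fderiv ℝ (fderiv ℝ τ) y).flip a) y := fun a => by
    simpa using hA.clm_apply (hasFDerivAt_const a y)
  have hg : ∀ a b c : E4, fderiv ℝ (g a b) y c
      = fderiv ℝ B (τ y) (fderiv ℝ τ y c) (fderiv ℝ τ y a) (fderiv ℝ τ y b)
        + B (τ y) (fderiv ℝ (fderiv ℝ τ) y c a) (fderiv ℝ τ y b)
        + B (τ y) (fderiv ℝ τ y a) (fderiv ℝ (fderiv ℝ τ) y c b) := by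
    intro a b c
    rw [((hcB.clm_apply (happ a)).clm_apply (happ b)).fderiv]
    simp only [add_apply, ContinuousLinearMap.comp_apply,
      ContinuousLinearMap.flip_apply]
    ring
  have hsym : ∀ a b : E4, fderiv ℝ (fderiv ℝ τ) y a b = fderiv ℝ (fderiv ℝ τ) y b a :=
    fun a b => (hτ.isSymmSndFDerivAt (by simp)).eq a b
  rw [hg v q u, hg q u v, hg u v q, hsym v u, hsym q u, hsym q v]
  rw [hanti (fderiv ℝ τ y u) (fderiv ℝ (fderiv ℝ τ) y v q),
    hanti (fderiv ℝ τ y v) (fderiv ℝ (fderiv ℝ τ) y u q),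
    hanti (fderiv ℝ τ y q) (fderiv ℝ (fderiv ℝ τ) y u v)]
  ring

variable {M : Type*} [TopologicalSpace M] [ChartedSpace E4 M]

/-- the coefficient field of `w` in the chart at `x0`, as a bilinear map -/
noncomputable def bInChart (w : M → E4 → E4 → ℝ) (x0 : M) (y : E4) : E4 →L[ℝ] E4 →L[ℝ] ℝ :=
  bilinOf fun a b => formInChart w x0 y (EuclideanSpace.single a 1) (EuclideanSpace.single b 1)

theorem formInChart_anti {w : M → E4 → E4 → ℝ} (hw : IsTwoForm w) (x0 : M) (y u v : E4) :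
    formInChart w x0 y v u = -formInChart w x0 y u v := hw.2.1 _ _ _

theorem bInChart_apply {w : M → E4 → E4 → ℝ} (hw : IsTwoForm w) (x0 : M) (y u v : E4) :
    bInChart w x0 y u v = formInChart w x0 y u v := by
  have hl : ∀ q : E4, IsLinearMap ℝ (formInChart w x0 y q) := fun q => by
    constructor <;> intros <;> simp only [formInChart, ← fromChartL_apply, map_add, map_smul,
      (hw.1 _ _).map_add, (hw.1 _ _).map_smul]
  refine (bilinear_eq_bilinOf (formInChart w x0 y) ?_ hl u v).symm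
  intro q
  constructor
  · intro a b
    rw [formInChart_anti hw x0 y q, formInChart_anti hw x0 y q a, formInChart_anti hw x0 y q b,
      (hl q).map_add]
    ring
  · intro c a
    rw [formInChart_anti hw x0 y q, formInChart_anti hw x0 y q a, (hl q).map_smul]
    simp

theorem contDiffOn_bInChart {w : M → E4 → E4 → ℝ} (hw : IsTwoForm w) (x0 : M) :
    ContDiffOn ℝ ∞ (bInChart w x0) (extChartAt (𝓡 4) x0).target := by
  unfold bInChart bilinOf
  refine ContDiffOn.sum fun a _ => ContDiffOn.sum fun b _ => ?_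
  let T : ℝ →L[ℝ] E4 →L[ℝ] E4 →L[ℝ] ℝ := ContinuousLinearMap.toSpanSingleton ℝ
    ((EuclideanSpace.proj a).smulRight (EuclideanSpace.proj b : E4 →L[ℝ] ℝ))
  exact (T.contDiff.comp_contDiffOn
    (hw.2.2 x0 (EuclideanSpace.single a 1) (EuclideanSpace.single b 1))).congr fun z _ => rfl

theorem differentiableAt_bInChart {w : M → E4 → E4 → ℝ} (hw : IsTwoForm w) (x0 : M) {y : E4}
    (hy : y ∈ (extChartAt (𝓡 4) x0).target) : DifferentiableAt ℝ (bInChart w x0) y :=
  ((contDiffOn_bInChart hw x0 y hy).differentiableWithinAt (by decide)).differentiableAt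
    ((isOpen_extChartAt_target x0).mem_nhds hy)

/-- the cyclic sum defining `IsClosedForm` -/
noncomputable def cycSum (w : M → E4 → E4 → ℝ) (x0 : M) (y u v q : E4) : ℝ :=
  fderiv ℝ (fun z => formInChart w x0 z v q) y u + fderiv ℝ (fun z => formInChart w x0 z q u) y v
    + fderiv ℝ (fun z => formInChart w x0 z u v) y q

theorem cycSum_eq_fderiv_b {w : M → E4 → E4 → ℝ} (hw : IsTwoForm w) (x0 : M) {y : E4}
    (hy : y ∈ (extChartAt (𝓡 4) x0).target) (u v q : E4) :
    cycSum w x0 y u v q = fderiv ℝ (bInChart w x0) y u v q + fderiv ℝ (bInChart w x0) y v q u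
      + fderiv ℝ (bInChart w x0) y q u v := by
  have hd := (differentiableAt_bInChart hw x0 hy).hasFDerivAt
  have h : ∀ a b c : E4, fderiv ℝ (fun z => formInChart w x0 z a b) y c
      = fderiv ℝ (bInChart w x0) y c a b := by
    intro a b c
    simp only [← bInChart_apply hw]
    rw [((hd.clm_apply (hasFDerivAt_const a y)).clm_apply (hasFDerivAt_const b y)).fderiv]
    simp
  rw [cycSum, h, h, h]

variable [IsManifold (𝓡 4) ∞ M]

/-- the cyclic sum transforms as a three-tensor -/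
theorem cycSum_trans {w : M → E4 → E4 → ℝ} (hw : IsTwoForm w) {x0 x1 : M} {y : E4}
    (hy : y ∈ overlap x0 x1) (u v q : E4) :
    cycSum w x0 y u v q = cycSum w x1 (trans4 x0 x1 y) (fderiv ℝ (trans4 x0 x1) y u)
      (fderiv ℝ (trans4 x0 x1) y v) (fderiv ℝ (trans4 x0 x1) y q) := by
  have hτ : ContDiffAt ℝ 2 (trans4 x0 x1) y :=
    ((contDiffOn_trans4 x0 x1).contDiffAt ((isOpen_overlap x0 x1).mem_nhds hy)).of_le
      (WithTop.coe_le_coe.mpr le_top)
  have ht := (trans4_mem_overlap hy).1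
  rw [cycSum_eq_fderiv_b hw x1 ht, ← cyclic_fderiv_pull (differentiableAt_bInChart hw x1 ht) hτ
    (fun a b => by rw [bInChart_apply hw, bInChart_apply hw, formInChart_anti hw]) u v q]
  have he : ∀ a b : E4, (fun z => formInChart w x0 z a b) =ᶠ[𝓝 y] fun z =>
      bInChart w x1 (trans4 x0 x1 z) (fderiv ℝ (trans4 x0 x1) z a)
        (fderiv ℝ (trans4 x0 x1) z b) := by
    intro a b
    filter_upwards [(isOpen_overlap x0 x1).mem_nhds hy] with z hz
    rw [bInChart_apply hw, formInChart_trans w hz]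
  rw [cycSum, (he v q).fderiv_eq, (he q u).fderiv_eq, (he u v).fderiv_eq]

/-- closedness may be checked in one chart around each point -/
theorem isClosedForm_of_local {w : M → E4 → E4 → ℝ} (hw : IsTwoForm w)
    (h : ∀ p : M, ∃ x1 : M, p ∈ (extChartAt (𝓡 4) x1).source ∧
      ∀ u v q : E4, cycSum w x1 (extChartAt (𝓡 4) x1 p) u v q = 0) : IsClosedForm w := by
  intro x0 y hy u v q
  obtain ⟨x1, hx1, h0⟩ := h ((extChartAt (𝓡 4) x0).symm y)
  show cycSum w x0 y u v q = 0
  rw [cycSum_trans hw ⟨hy, hx1⟩]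
  exact h0 _ _ _

end Vale.Agent.P204.Full
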