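import Vale.Agent.P204.Full.Core

/-!
P204: the interfaces between the modules of the full proof.
-/

namespace Vale.Agent.P204.Full

open MeasureTheory Set Metric Filter Topology
open scoped Manifold ContDiff

universe u

variable {M : Type u} [TopologicalSpace M] [ChartedSpace E4 M]

/-- a smooth two-form tames the structure: an adapted setup exists with `F` its invariant part -/
def SetupSpec (M : Type u) [TopologicalSpace M] [ChartedSpace E4 M] : Prop :=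
  ∀ J : M → E4 → E4, IsAlmostComplex J → ∀ w, IsTwoForm w → Tames w J →
    ∃ S : Setup M, S.J = J ∧ S.F.1 = p11 J w

/-- bounded lift of the anti-invariant part of a closed form -/
def LiftSpec (S : Setup M) : Prop :=
  ∃ (N : ℕ) (C : ℝ), ∀ w : Form M, IsClosedForm w.1 → ∃ η : Form M, IsClosedForm η.1 ∧
    pm S.J η.1 = pm S.J w.1 ∧ S.cN 0 η.1 ≤ C * S.cN N (pm S.J w.1)

/-- duality -/
def DualSpec (S : Setup M) : Prop :=
  LiftSpec S → (¬ ∃ w, IsSymplectic w ∧ Compatible w S.J) → Nonempty (Obstruction S)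

variable [MeasurableSpace M]

/-- the estimates for one smoothing family -/
structure Mollif (S : Setup M) (op : ℝ → Form M →ₗ[ℝ] Form M) : Prop where
  exact : ∀ e : ℝ, ∀ w : Form M, IsExactForm w.1 → IsExactForm (op e w).1
  closed : ∀ e : ℝ, ∀ w : Form M, IsClosedForm w.1 → IsClosedForm (op e w).1
  bound : ∀ m : ℕ, ∃ C, ∀ e : ℝ, 0 < e → e ≤ 1 → ∀ w : Form M,
    S.sN m e (op e w).1 ≤ C * S.sN m e w.1
  gain : ∀ m : ℕ, ∃ C, ∀ e : ℝ, 0 < e → e ≤ 1 → ∀ w : Form M,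
    S.sN m e (op e w).1 ≤ C * S.l2 w.1
  gain_sup : ∀ N : ℕ, ∃ C, ∀ e : ℝ, 0 < e → e ≤ 1 → ∀ w : Form M,
    e ^ (N + 4) * S.cN N (op e w).1 ≤ C * S.l2 w.1
  power : ∀ m : ℕ, ∃ C, ∀ a e : ℝ, 0 < a → a ≤ e → e ≤ 1 → ∀ w : Form M,
    S.sN m a ((((1 : Form M →ₗ[ℝ] Form M) - op a) ^ m) w).1 ≤ C * (a / e) ^ m * S.sN m e w.1
  conv : ∀ N : ℕ, ∀ w : Form M, Tendsto (fun e => S.cN N ((op e w).1 - w.1)) (𝓝[>] 0) (𝓝 0)
  conv_sup : ∃ C, ∀ e : ℝ, 0 < e → e ≤ 1 → ∀ w : Form M,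
    S.cN 0 ((op e w).1 - w.1) ≤ C * e * S.cN 1 w.1
  comm_inv : ∀ m : ℕ, ∃ C, ∀ e : ℝ, 0 < e → e ≤ 1 → ∀ w : Form M, p11 S.J w.1 = w.1 →
    S.sN m e (pm S.J (op e w).1) ≤ C * e * S.l2 w.1
  comm_anti : ∀ m : ℕ, ∃ C, ∀ e : ℝ, 0 < e → e ≤ 1 → ∀ w : Form M, pm S.J w.1 = w.1 →
    S.sN m e (p11 S.J (op e w).1) ≤ C * e * S.l2 w.1
  sup_kernel : ∃ C K, 0 < K ∧ ∀ e : ℝ, 0 < e → e ≤ 1 → ∀ w : Form M, ∀ x v,
    |p11 S.J (op e w).1 x v (S.J x v)| ≤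
      C * S.maj (K * e) (S.nrm w.1) x * S.F.1 x v (S.J x v)
  pos_inv : ∃ C K, 0 < K ∧ ∀ e : ℝ, 0 < e → e ≤ 1 → ∀ w : Form M, p11 S.J w.1 = w.1 →
    NonnegJ S.J w.1 → ∀ x v,
      -(C * e ^ 2 * S.maj (K * e) (S.nrm w.1) x * S.F.1 x v (S.J x v)) ≤
        p11 S.J (op e w).1 x v (S.J x v)
  pos_anti : ∃ C K, 0 < K ∧ ∀ e : ℝ, 0 < e → e ≤ 1 → ∀ w : Form M, pm S.J w.1 = w.1 → ∀ x v,
    |p11 S.J (op e w).1 x v (S.J x v)| ≤
      C * e * S.maj (K * e) (S.nrm w.1) x * S.F.1 x v (S.J x v)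

/-- a smoothing family and its transpose -/
structure SmoothPair (S : Setup M) (R Rt : ℝ → Form M →ₗ[ℝ] Form M) : Prop where
  left : Mollif S R
  right : Mollif S Rt
  adj : ∀ e : ℝ, ∀ w η : Form M, S.pair (R e w).1 η.1 = S.pair w.1 (Rt e η).1
  represent : ∀ L : Form M →ₗ[ℝ] ℝ, ∀ N : ℕ, ∀ C : ℝ, (∀ w, |L w| ≤ C * S.cN N w.1) →
    ∀ e : ℝ, 0 < e → e ≤ 1 →
      (∃ LR : Form M, ∀ η : Form M, S.pair LR.1 η.1 = L (Rt e η)) ∧
      ∃ LRt : Form M, ∀ η : Form M, S.pair LRt.1 η.1 = L (R e η)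

/-- smoothing commuting with the differential, closed under transposition -/
def SmoothSpec (S : Setup M) : Prop := ∃ R Rt, SmoothPair S R Rt

/-- an anti-invariant functional bounded in the square-integral norm -/
def PhiL2 {S : Setup M} (O : Obstruction S) : Prop := ∃ C, ∀ w : Form M, |O.φ w| ≤ C * S.l2 w.1

/-- value of a functional on the invariant form cut off at scale `e` around `x` -/
noncomputable def ballVal (S : Setup M) (L : Form M → ℝ) (e : ℝ) (x : M) : ℝ :=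
  sSup {r : ℝ | ∃ w : Form M, (∀ y u v, w.1 y u v = S.bump e x y * S.F.1 y u v) ∧ r = L w}

/-- density bound of the positive functional at all scales -/
def Density {S : Setup M} (O : Obstruction S) : Prop :=
  ∀ K > 0, ∃ C, ∀ e : ℝ, 0 < e → e ≤ 1 → ∀ x : M, ballVal S O.T (K * e) x ≤ C * e ^ 2

/-- step 3 applied to the current itself: `m(x, e) / e² ≤ C + C Y(e)` -/
def LogTestSpec (S : Setup M) : Prop :=
  ∀ O : Obstruction S, ∀ K > 0, ∀ m : ℕ, O.order + 4 ≤ m → ∃ C, ∀ e : ℝ, 0 < e → e ≤ 1 →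
    ∀ Y : ℝ, (∀ ψ : Form M, |O.φ ψ| ≤ Y * S.sN m e ψ.1) → ∀ x : M,
      ballVal S O.T (K * e) x ≤ e ^ 2 * (C + C * Y)

/-- steps 2 and 3: square identity and density -/
def SquareSpec (S : Setup M) : Prop :=
  SmoothSpec S → LogTestSpec S → ∀ O : Obstruction S, Density O ∧ PhiL2 O

/-- the splitting of the positive functional produced by steps 4 and 5 -/
structure Cut {S : Setup M} (O : Obstruction S) where
  part : ℕ → Form M →ₗ[ℝ] ℝ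
  sing : Form M →ₗ[ℝ] ℝ
  part_inv : ∀ k, ∀ w η : Form M, η.1 = p11 S.J w.1 → part k η = part k w
  part_nonneg : ∀ k, ∀ w : Form M, p11 S.J w.1 = w.1 → NonnegJ S.J w.1 → 0 ≤ part k w
  part_le : ∀ k, ∀ w : Form M, p11 S.J w.1 = w.1 → NonnegJ S.J w.1 → part k w ≤ O.T w
  part_anti : ∀ k, ∀ w : Form M, p11 S.J w.1 = w.1 → NonnegJ S.J w.1 →
    part (k + 1) w ≤ part k w
  part_lim : ∀ w : Form M, Tendsto (fun k => part k w) atTop (𝓝 (sing w))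
  sing_exact : ∀ w : Form M, IsExactForm w.1 → sing w = 0
  diffuse : ∀ k, ∀ K > 0, Tendsto (fun δ : ℝ => δ ^ 2 * ∫ x,
    (ballVal S (fun w => O.T w - part k w) (K * δ) x / δ ^ 4) ^ 2 ∂S.vol) (𝓝[>] 0) (𝓝 0)

/-- step 4: potentials with bounded energy, uniformly in the scale -/
def EnergySpec (S : Setup M) : Prop :=
  ∀ R Rt, SmoothPair S R Rt → ∀ O : Obstruction S, Density O → PhiL2 O →
    ∃ C, ∃ CK : ℝ → ℝ, ∀ e : ℝ, 0 < e → e ≤ 1 → ∀ TR : Form M,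
      (∀ ζ : Form M, S.pair TR.1 ζ.1 = O.T (Rt e ζ)) →
      ∃ h : M → ℝ, IsSmoothFn h ∧ (∀ x, 0 ≤ h x) ∧
        ∫ x, h x ∂S.vol ≤ C ∧
        ∫ x, S.nrm (dfdcf S.J h) x ∂S.vol ≤ C ∧
        ∫ x, wg S.F.1 (p11 S.J TR.1) (dfdcf S.J h) x ∂S.vol ≤ C ∧
        ∀ f : M → ℝ, IsSmoothFn f → (∀ x, 0 ≤ f x ∧ f x ≤ 1) → ∀ L : ℝ,
          (∀ x, f x ≠ 0 → h x ≤ L) → ∀ K > 0, ∀ J : ℕ, e ≤ (1 / 2 : ℝ) ^ J →
            ∑ j ∈ Finset.range J, ((1 / 2 : ℝ) ^ j) ^ 2 *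
              ∫ x, S.maj (K * (1 / 2 : ℝ) ^ j) (fun y => f y * |wg S.F.1 TR.1 S.F.1 y|) x ^ 2
                ∂S.vol ≤ CK K * Real.exp L

/-- steps 4 and 5: energy estimate and cut -/
def EnergyCutSpec (S : Setup M) : Prop :=
  SmoothSpec S → EnergySpec S → ∀ O : Obstruction S, Density O → PhiL2 O → Nonempty (Cut O)

/-- step 6: the anti-invariant functional vanishes -/
def EndSpec (S : Setup M) : Prop :=
  SmoothSpec S → ∀ O : Obstruction S, Density O → PhiL2 O → Cut O → ∀ w, O.φ w = 0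

end Vale.Agent.P204.Full
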