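import Vale.Agent.P204.Full.Statement

/-!
P204: chart calculus for the pointwise fields of Statement: inverse lemmas for `fromChart` and
`toChart`, transition maps and the transformation rule of `formInChart`.
-/

namespace Vale.Agent.P204.Full

open scoped Manifold ContDiff
open Set

variable {M : Type*} [TopologicalSpace M] [ChartedSpace E4 M]

/-- `fromChart` as a continuous linear map -/
noncomputable def fromChartL (x0 : M) (y : E4) : E4 →L[ℝ] E4 :=
  mfderiv (𝓡 4) (𝓡 4) (extChartAt (𝓡 4) x0).symm y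

/-- `toChart` as a continuous linear map -/
noncomputable def toChartL (x0 x : M) : E4 →L[ℝ] E4 :=
  mfderiv (𝓡 4) (𝓡 4) (extChartAt (𝓡 4) x0) x

theorem fromChartL_apply (x0 : M) (y v : E4) : fromChartL x0 y v = fromChart x0 y v := rfl

theorem toChartL_apply (x0 x : M) (v : E4) : toChartL x0 x v = toChart x0 x v := rfl

/-- the transition map from the chart at `x0` to the chart at `x1` -/
noncomputable def trans4 (x0 x1 : M) (y : E4) : E4 :=
  extChartAt (𝓡 4) x1 ((extChartAt (𝓡 4) x0).symm y)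

/-- the open overlap on which `trans4 x0 x1` is defined -/
def overlap (x0 x1 : M) : Set E4 :=
  (extChartAt (𝓡 4) x0).target ∩
    (extChartAt (𝓡 4) x0).symm ⁻¹' (extChartAt (𝓡 4) x1).source

theorem isOpen_overlap (x0 x1 : M) : IsOpen (overlap x0 x1) :=
  (continuousOn_extChartAt_symm x0).isOpen_inter_preimage (isOpen_extChartAt_target x0)
    (isOpen_extChartAt_source x1)

variable [IsManifold (𝓡 4) ∞ M]

theorem fromChartL_comp_toChartL {x0 x : M} (hx : x ∈ (extChartAt (𝓡 4) x0).source) :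
    (fromChartL x0 (extChartAt (𝓡 4) x0 x)).comp (toChartL x0 x) = ContinuousLinearMap.id ℝ E4 := by
  have h := mfderivWithin_extChartAt_symm_comp_mfderiv_extChartAt' (I := 𝓡 4) hx
  rw [ModelWithCorners.range_eq_univ, mfderivWithin_univ] at h
  exact h

theorem toChartL_comp_fromChartL {x0 : M} {y : E4} (hy : y ∈ (extChartAt (𝓡 4) x0).target) :
    (toChartL x0 ((extChartAt (𝓡 4) x0).symm y)).comp (fromChartL x0 y)
      = ContinuousLinearMap.id ℝ E4 := by
  have h := mfderiv_extChartAt_comp_mfderivWithin_extChartAt_symm (I := 𝓡 4) hy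
  rw [ModelWithCorners.range_eq_univ, mfderivWithin_univ] at h
  exact h

theorem fromChart_toChart {x0 x : M} (hx : x ∈ (extChartAt (𝓡 4) x0).source) (v : E4) :
    fromChart x0 (extChartAt (𝓡 4) x0 x) (toChart x0 x v) = v :=
  congrArg (fun L : E4 →L[ℝ] E4 => L v) (fromChartL_comp_toChartL hx)

theorem toChart_fromChart {x0 : M} {y : E4} (hy : y ∈ (extChartAt (𝓡 4) x0).target) (v : E4) :
    toChart x0 ((extChartAt (𝓡 4) x0).symm y) (fromChart x0 y v) = v :=
  congrArg (fun L : E4 →L[ℝ] E4 => L v) (toChartL_comp_fromChartL hy)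

theorem fromChart_injective {x0 : M} {y : E4} (hy : y ∈ (extChartAt (𝓡 4) x0).target) :
    Function.Injective (fromChart x0 y) :=
  Function.LeftInverse.injective (g := toChart x0 ((extChartAt (𝓡 4) x0).symm y))
    (toChart_fromChart hy)

theorem fromChart_surjective {x0 : M} {y : E4} (hy : y ∈ (extChartAt (𝓡 4) x0).target) :
    Function.Surjective (fromChart x0 y) := by
  intro v
  refine ⟨toChart x0 ((extChartAt (𝓡 4) x0).symm y) v, ?_⟩
  have hs : (extChartAt (𝓡 4) x0).symm y ∈ (extChartAt (𝓡 4) x0).source :=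
    (extChartAt (𝓡 4) x0).map_target hy
  have h := fromChart_toChart hs v
  rwa [(extChartAt (𝓡 4) x0).right_inv hy] at h

theorem contDiffOn_trans4 (x0 x1 : M) : ContDiffOn ℝ ∞ (trans4 x0 x1) (overlap x0 x1) := by
  have hf : ContMDiffOn (𝓡 4) (𝓡 4) ∞ (extChartAt (𝓡 4) x1) (extChartAt (𝓡 4) x1).source := by
    rw [extChartAt_source]
    exact contMDiffOn_extChartAt
  exact ((hf.comp' (contMDiffOn_extChartAt_symm x0)).contDiffOn)

theorem differentiableAt_trans4 {x0 x1 : M} {y : E4} (hy : y ∈ overlap x0 x1) :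
    DifferentiableAt ℝ (trans4 x0 x1) y :=
  (((contDiffOn_trans4 x0 x1) y hy).differentiableWithinAt (by decide)).differentiableAt
    ((isOpen_overlap x0 x1).mem_nhds hy)

omit [IsManifold (𝓡 4) ∞ M] in
theorem trans4_mem_overlap {x0 x1 : M} {y : E4} (hy : y ∈ overlap x0 x1) :
    trans4 x0 x1 y ∈ overlap x1 x0 := by
  refine ⟨(extChartAt (𝓡 4) x1).map_source hy.2, ?_⟩
  show (extChartAt (𝓡 4) x1).symm (trans4 x0 x1 y) ∈ (extChartAt (𝓡 4) x0).source
  rw [trans4, (extChartAt (𝓡 4) x1).left_inv hy.2]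
  exact (extChartAt (𝓡 4) x0).map_target hy.1

omit [IsManifold (𝓡 4) ∞ M] in
theorem symm_trans4 {x0 x1 : M} {y : E4} (hy : y ∈ overlap x0 x1) :
    (extChartAt (𝓡 4) x1).symm (trans4 x0 x1 y) = (extChartAt (𝓡 4) x0).symm y :=
  (extChartAt (𝓡 4) x1).left_inv hy.2

omit [IsManifold (𝓡 4) ∞ M] in
theorem trans4_trans4 {x0 x1 : M} {y : E4} (hy : y ∈ overlap x0 x1) :
    trans4 x1 x0 (trans4 x0 x1 y) = y := by
  show extChartAt (𝓡 4) x0 ((extChartAt (𝓡 4) x1).symm (trans4 x0 x1 y)) = y
  rw [symm_trans4 hy, (extChartAt (𝓡 4) x0).right_inv hy.1]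

theorem toChart_fromChart_eq_fderiv {x0 x1 : M} {y : E4} (hy : y ∈ overlap x0 x1) (v : E4) :
    toChart x1 ((extChartAt (𝓡 4) x0).symm y) (fromChart x0 y v)
      = fderiv ℝ (trans4 x0 x1) y v := by
  have hsrc : (extChartAt (𝓡 4) x0).symm y ∈ (chartAt E4 x1).source := by
    have h := hy.2
    rwa [Set.mem_preimage, extChartAt_source] at h
  have hg : MDifferentiableAt (𝓡 4) (𝓡 4) (extChartAt (𝓡 4) x0).symm y := by
    have h := mdifferentiableWithinAt_extChartAt_symm (I := 𝓡 4) hy.1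
    rwa [ModelWithCorners.range_eq_univ, mdifferentiableWithinAt_univ] at h
  have hc := mfderiv_comp y (mdifferentiableAt_extChartAt hsrc) hg
  rw [← mfderiv_eq_fderiv]
  show (toChartL x1 ((extChartAt (𝓡 4) x0).symm y)).comp (fromChartL x0 y) v = _
  exact (congrArg (fun L : E4 →L[ℝ] E4 => L v) hc).symm

theorem fromChart_eq_trans {x0 x1 : M} {y : E4} (hy : y ∈ overlap x0 x1) (v : E4) :
    fromChart x1 (trans4 x0 x1 y) (fderiv ℝ (trans4 x0 x1) y v) = fromChart x0 y v := by
  rw [← toChart_fromChart_eq_fderiv hy]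
  exact fromChart_toChart (x0 := x1) hy.2 _

theorem formInChart_trans (w : M → E4 → E4 → ℝ) {x0 x1 : M} {y : E4} (hy : y ∈ overlap x0 x1)
    (u v : E4) :
    formInChart w x0 y u v
      = formInChart w x1 (trans4 x0 x1 y) (fderiv ℝ (trans4 x0 x1) y u)
          (fderiv ℝ (trans4 x0 x1) y v) := by
  unfold formInChart
  rw [fromChart_eq_trans hy, fromChart_eq_trans hy, symm_trans4 hy]

theorem toChart_self (x : M) (v : E4) : toChart x x v = v := by
  have h := mfderiv_extChartAt_self (I := 𝓡 4) (x := x)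
  exact congrArg (fun L : E4 →L[ℝ] E4 => L v) h

end Vale.Agent.P204.Full
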