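import Vale.Agent.P204.Full.Statement

/-!
P204: coefficient calculus of forms on the model space.
A two-form is a function with values in `Fin 4 → Fin 4 → ℝ` (antisymmetric), a one-form a
function with values in `Fin 4 → ℝ`.
-/

namespace Vale.Agent.P204.Full

open MeasureTheory
open scoped ContDiff

/-- coefficients of a two-form -/
abbrev C2 : Type := Fin 4 → Fin 4 → ℝ

/-- coefficients of a one-form -/
abbrev C1 : Type := Fin 4 → ℝ

/-- standard basis vector -/
noncomputable def ev4 (a : Fin 4) : E4 := EuclideanSpace.single a 1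

/-- antisymmetry -/
def Anti (w : C2) : Prop := ∀ a b, w b a = -w a b

/-- partial derivative -/
noncomputable def pd {F : Type} [NormedAddCommGroup F] [NormedSpace ℝ F]
    (f : E4 → F) (a : Fin 4) (x : E4) : F := fderiv ℝ f x (ev4 a)

/-- exterior derivative of a one-form -/
noncomputable def d1 (α : E4 → C1) (x : E4) : C2 :=
  fun a b => pd (fun y => α y b) a x - pd (fun y => α y a) b x

/-- exterior derivative of a two-form -/
noncomputable def d2 (w : E4 → C2) (x : E4) (a b c : Fin 4) : ℝ :=
  pd (fun y => w y b c) a x + pd (fun y => w y c a) b x + pd (fun y => w y a b) c x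

/-- exterior product of two one-forms -/
def wedge11 (α β : C1) : C2 := fun a b => α a * β b - α b * β a

/-- exterior product of two two-forms, as a multiple of the volume element -/
def wdg (u v : C2) : ℝ :=
  u 0 1 * v 2 3 - u 0 2 * v 1 3 + u 0 3 * v 1 2 + u 1 2 * v 0 3 - u 1 3 * v 0 2 + u 2 3 * v 0 1

/-- pullback of two-form coefficients by a linear map given by its matrix -/
def pullC (A : Matrix (Fin 4) (Fin 4) ℝ) (w : C2) : C2 :=
  fun a b => ∑ c, ∑ d, A c a * A d b * w c d

/-- Jacobian matrix of a map of the model space -/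
noncomputable def jac (Φ : E4 → E4) (x : E4) : Matrix (Fin 4) (Fin 4) ℝ :=
  fun c a => fderiv ℝ Φ x (ev4 a) c

/-- pullback of a two-form -/
noncomputable def pull (Φ : E4 → E4) (w : E4 → C2) (x : E4) : C2 := pullC (jac Φ x) (w (Φ x))

/-- the standard complex structure: `e0 ↦ e1`, `e2 ↦ e3` -/
def J0 : Matrix (Fin 4) (Fin 4) ℝ := !![0, -1, 0, 0; 1, 0, 0, 0; 0, 0, 0, -1; 0, 0, 1, 0]

/-- the standard Kaehler form -/
def F0 : C2 := !![0, 1, 0, 0; -1, 0, 0, 0; 0, 0, 0, 1; 0, 0, -1, 0]

/-- invariant part of coefficients for the complex structure with matrix `A` -/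
noncomputable def p11C (A : Matrix (Fin 4) (Fin 4) ℝ) (w : C2) : C2 :=
  fun a b => (w a b + pullC A w a b) / 2

/-- anti-invariant part of coefficients -/
noncomputable def pmC (A : Matrix (Fin 4) (Fin 4) ℝ) (w : C2) : C2 :=
  fun a b => (w a b - pullC A w a b) / 2

/-- standard frame adapted to the complex structure with matrix `A`: `e0, A e0, e2, A e2` -/
def frame (A : Matrix (Fin 4) (Fin 4) ℝ) : Matrix (Fin 4) (Fin 4) ℝ :=
  fun c a => (![(1 : Matrix (Fin 4) (Fin 4) ℝ) c 0, A c 0, (1 : Matrix (Fin 4) (Fin 4) ℝ) c 2, A c 2] a)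

/-- Gaussian of unit mass and width `s` -/
noncomputable def gauss (s : ℝ) (z : E4) : ℝ :=
  Real.exp (-‖z‖ ^ 2 / (4 * s ^ 2)) / (16 * Real.pi ^ 2 * s ^ 4)

/-- convolution with the Gaussian of width `s` -/
noncomputable def gconv (s : ℝ) (f : E4 → ℝ) (x : E4) : ℝ := ∫ y, gauss s (x - y) * f y

/-- potential comparable to the kernel `|z|⁻²` above the scale `η` -/
noncomputable def pot2 (η R : ℝ) (f : E4 → ℝ) (x : E4) : ℝ := ∫ s in η..R, s * gconv s f x

/-- potential comparable to the kernel `|z|⁻³` above the scale `η` -/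
noncomputable def pot3 (η R : ℝ) (f : E4 → ℝ) (x : E4) : ℝ := ∫ s in η..R, gconv s f x

/-- frozen Gaussian: the standard Gaussian in the coordinates given by the matrix `L` -/
noncomputable def fgauss (L : Matrix (Fin 4) (Fin 4) ℝ) (s : ℝ) (z : E4) : ℝ :=
  gauss s (WithLp.toLp 2 (L⁻¹.mulVec z.ofLp)) * |(L⁻¹).det|

end Vale.Agent.P204.Full
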