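import Mathlib

/-!
P204: statement of the tamed-to-compatible theorem on closed smooth four-manifolds.
Fields are written pointwise with values read on the model space; smoothness and closedness are
judged in the charts of the atlas.
-/

namespace Vale.Agent.P204.Full

open scoped Manifold ContDiff

/-- the model space -/
abbrev E4 : Type := EuclideanSpace ℝ (Fin 4)

universe u

variable {M : Type u} [TopologicalSpace M] [ChartedSpace E4 M]

/-- a tangent vector given in the chart at `x0`, at the point with coordinates `y`,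
as a tangent vector of `M` -/
noncomputable def fromChart (x0 : M) (y v : E4) : E4 :=
  mfderiv (𝓡 4) (𝓡 4) (extChartAt (𝓡 4) x0).symm y v

/-- a tangent vector at `x` read in the chart at `x0` -/
noncomputable def toChart (x0 x : M) (v : E4) : E4 :=
  mfderiv (𝓡 4) (𝓡 4) (extChartAt (𝓡 4) x0) x v

/-- coefficient function of a two-tensor in the chart at `x0` -/
noncomputable def formInChart (w : M → E4 → E4 → ℝ) (x0 : M) (y u v : E4) : ℝ :=
  w ((extChartAt (𝓡 4) x0).symm y) (fromChart x0 y u) (fromChart x0 y v)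

/-- a smooth almost complex structure -/
def IsAlmostComplex (J : M → E4 → E4) : Prop :=
  (∀ x, IsLinearMap ℝ (J x)) ∧ (∀ x v, J x (J x v) = -v) ∧
    ∀ x0 : M, ∀ v : E4,
      ContDiffOn ℝ ∞ (fun y => toChart x0 ((extChartAt (𝓡 4) x0).symm y)
        (J ((extChartAt (𝓡 4) x0).symm y) (fromChart x0 y v))) (extChartAt (𝓡 4) x0).target

/-- a smooth real two-form -/
def IsTwoForm (w : M → E4 → E4 → ℝ) : Prop :=
  (∀ x u, IsLinearMap ℝ (w x u)) ∧ (∀ x u v, w x v u = -w x u v) ∧
    ∀ x0 : M, ∀ u v : E4,
      ContDiffOn ℝ ∞ (fun y => formInChart w x0 y u v) (extChartAt (𝓡 4) x0).target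

/-- the exterior derivative vanishes in every chart of the atlas -/
def IsClosedForm (w : M → E4 → E4 → ℝ) : Prop :=
  ∀ x0 : M, ∀ y ∈ (extChartAt (𝓡 4) x0).target, ∀ u v q : E4,
    fderiv ℝ (fun z => formInChart w x0 z v q) y u + fderiv ℝ (fun z => formInChart w x0 z q u) y v
      + fderiv ℝ (fun z => formInChart w x0 z u v) y q = 0

/-- a symplectic form: a closed nondegenerate smooth two-form -/
def IsSymplectic (w : M → E4 → E4 → ℝ) : Prop :=
  IsTwoForm w ∧ IsClosedForm w ∧ ∀ x u, u ≠ 0 → ∃ v, w x u v ≠ 0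

/-- `w` tames `J` -/
def Tames (w : M → E4 → E4 → ℝ) (J : M → E4 → E4) : Prop :=
  ∀ x v, v ≠ 0 → 0 < w x v (J x v)

/-- `w` is compatible with `J` -/
def Compatible (w : M → E4 → E4 → ℝ) (J : M → E4 → E4) : Prop :=
  Tames w J ∧ ∀ x u v, w x (J x u) (J x v) = w x u v

/-- Donaldson's tamed-to-compatible question, all closed four-manifolds. -/
def TamedImpliesCompatible.{v} : Prop :=
  ∀ (M : Type v) [TopologicalSpace M] [T2Space M] [CompactSpace M] [ChartedSpace E4 M]
    [IsManifold (𝓡 4) ∞ M] (J : M → E4 → E4), IsAlmostComplex J →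
      (∃ w, IsSymplectic w ∧ Tames w J) → ∃ w, IsSymplectic w ∧ Compatible w J

end Vale.Agent.P204.Full
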